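import Crest.Agent.Helper17.SW.Parts

/-!
# S0453 (helper17): the block of a `Quad` as four bits
-/

set_option autoImplicit false

namespace Crest.Agent.Helper17.SW

open Finset Crest.SwitchChain Crest.Agent.Helper65.Switch

variable {n : ℕ}

/-- the state of the block `(au, av, bu, bv)`. -/
abbrev Bits := Bool × Bool × Bool × Bool

namespace Bits

/-- number of block edges at `a`. -/
def rho (m : Bits) : ℕ := m.1.toNat + m.2.1.toNat
/-- number of block edges at `u`. -/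
def kap (m : Bits) : ℕ := m.1.toNat + m.2.2.1.toNat
/-- number of block edges. -/
def cnt (m : Bits) : ℕ := m.1.toNat + m.2.1.toNat + m.2.2.1.toNat + m.2.2.2.toNat
/-- the transposed block (roles of the two pairs exchanged). -/
def tr (m : Bits) : Bits := (m.1, m.2.2.1, m.2.1, m.2.2.2)

end Bits

namespace Quad

variable (q : Quad n)

lemma eau_ne_eav : q.eau ≠ q.eav := by
  simp only [eau, eav, ne_eq, mkE_eq_iff]
  rintro (⟨-, h⟩ | ⟨h, -⟩)
  · exact q.huv h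
  · exact q.hav h
lemma eau_ne_ebu : q.eau ≠ q.ebu := by
  simp only [eau, ebu, ne_eq, mkE_eq_iff]
  rintro (⟨h, -⟩ | ⟨h, -⟩)
  · exact q.hab h
  · exact q.hau h
lemma eau_ne_ebv : q.eau ≠ q.ebv := by
  simp only [eau, ebv, ne_eq, mkE_eq_iff]
  rintro (⟨h, -⟩ | ⟨h, -⟩)
  · exact q.hab h
  · exact q.hav h
lemma eav_ne_ebu : q.eav ≠ q.ebu := by
  simp only [eav, ebu, ne_eq, mkE_eq_iff]
  rintro (⟨h, -⟩ | ⟨h, -⟩)
  · exact q.hab h
  · exact q.hau h
lemma eav_ne_ebv : q.eav ≠ q.ebv := by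
  simp only [eav, ebv, ne_eq, mkE_eq_iff]
  rintro (⟨h, -⟩ | ⟨h, -⟩)
  · exact q.hab h
  · exact q.hav h
lemma ebu_ne_ebv : q.ebu ≠ q.ebv := by
  simp only [ebu, ebv, ne_eq, mkE_eq_iff]
  rintro (⟨-, h⟩ | ⟨h, -⟩)
  · exact q.huv h
  · exact q.hbv h

/-- the block bits of a graph. -/
def M (G : Finset (Edge n)) : Bits :=
  (decide (q.eau ∈ G), decide (q.eav ∈ G), decide (q.ebu ∈ G), decide (q.ebv ∈ G))

/-- an optional single edge. -/
def opt (c : Bool) (e : Edge n) : Finset (Edge n) := if c then {e} else ∅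

lemma mem_opt {c : Bool} {e e' : Edge n} : e' ∈ opt c e ↔ c = true ∧ e' = e := by
  cases c <;> simp [opt]

lemma disjoint_opt {c c' : Bool} {e e' : Edge n} (h : e ≠ e') : Disjoint (opt c e) (opt c' e') := by
  rw [Finset.disjoint_left]
  intro x hx hx'
  exact h ((mem_opt.1 hx).2.symm.trans (mem_opt.1 hx').2)

lemma deg_opt (c : Bool) (e : Edge n) (x : Fin n) :
    deg (opt c e) x = if c = true ∧ x ∈ e.1 then 1 else 0 := by
  cases c
  · simp [opt, deg_empty]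
  · simp [opt, deg_singleton]

lemma card_opt (c : Bool) (e : Edge n) : (opt c e).card = c.toNat := by
  cases c <;> simp [opt]

/-- the block edge set with given bits. -/
def blk (m : Bits) : Finset (Edge n) :=
  opt m.1 q.eau ∪ opt m.2.1 q.eav ∪ opt m.2.2.1 q.ebu ∪ opt m.2.2.2 q.ebv

lemma mem_blk {m : Bits} {e : Edge n} :
    e ∈ q.blk m ↔ (m.1 = true ∧ e = q.eau) ∨ (m.2.1 = true ∧ e = q.eav) ∨
      (m.2.2.1 = true ∧ e = q.ebu) ∨ (m.2.2.2 = true ∧ e = q.ebv) := by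
  simp only [blk, mem_union, mem_opt, or_assoc]

lemma blk_disj1 (m : Bits) : Disjoint (opt m.1 q.eau) (opt m.2.1 q.eav) :=
  disjoint_opt q.eau_ne_eav
lemma blk_disj2 (m : Bits) : Disjoint (opt m.1 q.eau ∪ opt m.2.1 q.eav) (opt m.2.2.1 q.ebu) := by
  rw [Finset.disjoint_union_left]
  exact ⟨disjoint_opt q.eau_ne_ebu, disjoint_opt q.eav_ne_ebu⟩
lemma blk_disj3 (m : Bits) :
    Disjoint (opt m.1 q.eau ∪ opt m.2.1 q.eav ∪ opt m.2.2.1 q.ebu) (opt m.2.2.2 q.ebv) := by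
  rw [Finset.disjoint_union_left, Finset.disjoint_union_left]
  exact ⟨⟨disjoint_opt q.eau_ne_ebv, disjoint_opt q.eav_ne_ebv⟩, disjoint_opt q.ebu_ne_ebv⟩

lemma deg_blk (m : Bits) (x : Fin n) :
    deg (q.blk m) x = (if m.1 = true ∧ x ∈ q.eau.1 then 1 else 0) +
      (if m.2.1 = true ∧ x ∈ q.eav.1 then 1 else 0) +
      (if m.2.2.1 = true ∧ x ∈ q.ebu.1 then 1 else 0) +
      (if m.2.2.2 = true ∧ x ∈ q.ebv.1 then 1 else 0) := by
  rw [blk, deg_union (q.blk_disj3 m), deg_union (q.blk_disj2 m), deg_union (q.blk_disj1 m),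
    deg_opt, deg_opt, deg_opt, deg_opt]

lemma card_blk (m : Bits) : (q.blk m).card = m.cnt := by
  rw [blk, Finset.card_union_of_disjoint (q.blk_disj3 m),
    Finset.card_union_of_disjoint (q.blk_disj2 m), Finset.card_union_of_disjoint (q.blk_disj1 m),
    card_opt, card_opt, card_opt, card_opt]
  rfl

lemma blk_type {m : Bits} {e : Edge n} (he : e ∈ q.blk m) : tch q.a q.b e ∧ tch q.u q.v e := by
  rw [q.block_iff]
  rcases q.mem_blk.1 he with h | h | h | h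
  · exact Or.inl h.2
  · exact Or.inr (Or.inl h.2)
  · exact Or.inr (Or.inr (Or.inl h.2))
  · exact Or.inr (Or.inr (Or.inr h.2))

lemma B_eq_blk (G : Finset (Edge n)) : q.B G = q.blk (q.M G) := by
  ext e
  rw [mem_B, mem_blk, block_iff]
  simp only [M, decide_eq_true_eq]
  constructor
  · rintro ⟨h, rfl | rfl | rfl | rfl⟩
    · exact Or.inl ⟨h, rfl⟩
    · exact Or.inr (Or.inl ⟨h, rfl⟩)
    · exact Or.inr (Or.inr (Or.inl ⟨h, rfl⟩))
    · exact Or.inr (Or.inr (Or.inr ⟨h, rfl⟩))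
  · rintro (⟨h, rfl⟩ | ⟨h, rfl⟩ | ⟨h, rfl⟩ | ⟨h, rfl⟩)
    · exact ⟨h, Or.inl rfl⟩
    · exact ⟨h, Or.inr (Or.inl rfl)⟩
    · exact ⟨h, Or.inr (Or.inr (Or.inl rfl))⟩
    · exact ⟨h, Or.inr (Or.inr (Or.inr rfl))⟩

lemma M_eq_of_B_eq {G : Finset (Edge n)} {m : Bits} (h : q.B G = q.blk m) : q.M G = m := by
  have key : ∀ e : Edge n, (tch q.a q.b e ∧ tch q.u q.v e) → (e ∈ G ↔ e ∈ q.blk m) := by
    intro e he
    rw [← h, mem_B]
    tauto
  have h1 := key q.eau ((q.block_iff _).2 (Or.inl rfl))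
  have h2 := key q.eav ((q.block_iff _).2 (Or.inr (Or.inl rfl)))
  have h3 := key q.ebu ((q.block_iff _).2 (Or.inr (Or.inr (Or.inl rfl))))
  have h4 := key q.ebv ((q.block_iff _).2 (Or.inr (Or.inr (Or.inr rfl))))
  obtain ⟨b1, b2, b3, b4⟩ := m
  simp only [mem_blk, q.eau_ne_eav, q.eau_ne_ebu, q.eau_ne_ebv, q.eav_ne_ebu, q.eav_ne_ebv,
    q.ebu_ne_ebv, q.eau_ne_eav.symm, q.eau_ne_ebu.symm, q.eau_ne_ebv.symm, q.eav_ne_ebu.symm,
    q.eav_ne_ebv.symm, q.ebu_ne_ebv.symm, and_false, and_true, or_false, false_or] at h1 h2 h3 h4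
  simp only [M, Prod.mk.injEq]
  refine ⟨?_, ?_, ?_, ?_⟩
  · cases b1 <;> simp_all
  · cases b2 <;> simp_all
  · cases b3 <;> simp_all
  · cases b4 <;> simp_all

lemma deg_blk_a (m : Bits) : deg (q.blk m) q.a = m.rho := by
  obtain ⟨b1, b2, b3, b4⟩ := m
  have := q.hab; have := q.hau; have := q.hav
  rw [deg_blk]
  cases b1 <;> cases b2 <;> simp [Bits.rho, eau, eav, ebu, ebv, *]

lemma deg_blk_b (m : Bits) : deg (q.blk m) q.b + m.rho = m.cnt := by
  obtain ⟨b1, b2, b3, b4⟩ := m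
  have := q.hab.symm; have := q.hbu; have := q.hbv
  rw [deg_blk]
  cases b1 <;> cases b2 <;> cases b3 <;> cases b4 <;>
    simp [Bits.rho, Bits.cnt, eau, eav, ebu, ebv, *]

lemma deg_blk_u (m : Bits) : deg (q.blk m) q.u = m.kap := by
  obtain ⟨b1, b2, b3, b4⟩ := m
  have := q.hau.symm; have := q.hbu.symm; have := q.huv
  rw [deg_blk]
  cases b1 <;> cases b3 <;> simp [Bits.kap, eau, eav, ebu, ebv, *]

lemma deg_blk_v (m : Bits) : deg (q.blk m) q.v + m.kap = m.cnt := by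
  obtain ⟨b1, b2, b3, b4⟩ := m
  have := q.hav.symm; have := q.hbv.symm; have := q.huv.symm
  rw [deg_blk]
  cases b1 <;> cases b2 <;> cases b3 <;> cases b4 <;>
    simp [Bits.kap, Bits.cnt, eau, eav, ebu, ebv, *]

end Quad

end Crest.Agent.Helper17.SW
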