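import Crest.Agent.Helper17.SW.TwoPairSpec

/-!
# S0453 (helper17): sums over a diamond fibre in coordinates

For `Coords Φ ℓ ℓ' M A C 2 As Cs` (block sum `2`) the fibre `Φ` is the disjoint union of six
product cells (`cp`, `cm`: `As 1 × Cs 1`; `up`: `As 2 × Cs 1`; `dn`: `As 0 × Cs 1`;
`lf`: `As 1 × Cs 2`; `rt`: `As 1 × Cs 0`).  `Coords.sum_six` rewrites a sum over `Φ` accordingly,
`Coords.sum_cls_*` / `Coords.sum_cls'_*` the sums over the classes of the two keys.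

Mathlib only (plus `TwoPairSpec.lean`).
-/

set_option autoImplicit false

namespace Crest.Agent.Helper17.SW

open Finset

namespace Blk4

/-- the state `{au, av}` (`ρ = 2`, `κ = 1`). -/
def up : Blk4 := (true, true, false, false)

/-- the state `{bu, bv}` (`ρ = 0`, `κ = 1`). -/
def dn : Blk4 := (false, false, true, true)

/-- the state `{au, bu}` (`ρ = 1`, `κ = 2`). -/
def lf : Blk4 := (true, false, true, false)

/-- the state `{av, bv}` (`ρ = 1`, `κ = 0`). -/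
def rt : Blk4 := (false, true, false, true)

end Blk4

section

variable {X L L' 𝒜 𝒞 : Type*} [DecidableEq L] [DecidableEq L']
  {Φ : Finset X} {ℓ : X → L} {ℓ' : X → L'} {M : X → Blk4} {A : X → 𝒜} {C : X → 𝒞}
  {m : ℕ} {As : ℕ → Finset 𝒜} {Cs : ℕ → Finset 𝒞}

/-- the sum over one cell of the fibre. -/
theorem Coords.sum_cell (h : Coords Φ ℓ ℓ' M A C m As Cs) (μ : Blk4) (H : 𝒜 → 𝒞 → ℝ) :
    ∑ x ∈ Φ.filter (fun x => M x = μ), H (A x) (C x) =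
      if μ.tot = m then ∑ a ∈ As μ.rho, ∑ c ∈ Cs μ.kap, H a c else 0 := by
  split_ifs with hm
  · rw [← Finset.sum_product']
    refine Finset.sum_bij (fun x _ => (A x, C x)) ?_ ?_ ?_ ?_
    · intro x hx
      obtain ⟨hxΦ, hxμ⟩ := Finset.mem_filter.1 hx
      have := (h.img μ (A x) (C x)).1 ⟨x, hxΦ, hxμ, rfl, rfl⟩
      exact Finset.mem_product.2 ⟨this.2.1, this.2.2⟩
    · intro x hx y hy hxy
      obtain ⟨hxΦ, hxμ⟩ := Finset.mem_filter.1 hx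
      obtain ⟨hyΦ, hyμ⟩ := Finset.mem_filter.1 hy
      simp only [Prod.mk.injEq] at hxy
      exact h.inj x hxΦ y hyΦ (hxμ.trans hyμ.symm) hxy.1 hxy.2
    · intro p hp
      obtain ⟨ha, hc⟩ := Finset.mem_product.1 hp
      obtain ⟨x, hxΦ, hxμ, hxa, hxc⟩ := (h.img μ p.1 p.2).2 ⟨hm, ha, hc⟩
      exact ⟨x, Finset.mem_filter.2 ⟨hxΦ, hxμ⟩, by rw [hxa, hxc]⟩
    · intro x hx; rfl
  · refine Finset.sum_eq_zero fun x hx => ?_
    obtain ⟨hxΦ, hxμ⟩ := Finset.mem_filter.1 hx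
    exact absurd ((h.img μ (A x) (C x)).1 ⟨x, hxΦ, hxμ, rfl, rfl⟩).1 hm

/-- **the six cells of a diamond fibre.** -/
theorem Coords.sum_six (h : Coords Φ ℓ ℓ' M A C 2 As Cs) (G : Blk4 → 𝒜 → 𝒞 → ℝ) :
    ∑ x ∈ Φ, G (M x) (A x) (C x) =
      ∑ a ∈ As 1, ∑ c ∈ Cs 1, G Blk4.cp a c + ∑ a ∈ As 1, ∑ c ∈ Cs 1, G Blk4.cm a c
        + ∑ a ∈ As 2, ∑ c ∈ Cs 1, G Blk4.up a c + ∑ a ∈ As 0, ∑ c ∈ Cs 1, G Blk4.dn a c
        + ∑ a ∈ As 1, ∑ c ∈ Cs 2, G Blk4.lf a c + ∑ a ∈ As 1, ∑ c ∈ Cs 0, G Blk4.rt a c := by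
  rw [← Finset.sum_fiberwise Φ M]
  have hcell : ∀ μ : Blk4, ∑ x ∈ Φ.filter (fun x => M x = μ), G (M x) (A x) (C x) =
      if μ.tot = 2 then ∑ a ∈ As μ.rho, ∑ c ∈ Cs μ.kap, G μ a c else 0 := by
    intro μ
    rw [← h.sum_cell μ (G μ)]
    refine Finset.sum_congr rfl fun x hx => ?_
    rw [(Finset.mem_filter.1 hx).2]
  simp only [hcell]
  simp [Fintype.sum_prod_type, Blk4.tot, Blk4.rho, Blk4.kap, Blk4.cp, Blk4.cm, Blk4.up, Blk4.dn,
    Blk4.lf, Blk4.rt]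
  ring

end

end Crest.Agent.Helper17.SW
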