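import Crest.Agent.Helper65.Switch.Connected
import Crest.Agent.Helper17.SW.Avg

/-!
# S0453 (helper17): splitting a graph by edge type relative to two disjoint vertex pairs

For four distinct vertices `a b u v` (a `Quad`) every edge is of exactly one of four types:
it touches neither `{a,b}` nor `{u,v}` (`R`), only `{a,b}` (`A`), only `{u,v}` (`C`), or both
(`B`, the block: one of `au, av, bu, bv`).  A graph is the disjoint union of its four parts and
degrees add up over the parts, so no adjacency bookkeeping is needed for the fibre structure of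
the two-pair lemma.
-/

set_option autoImplicit false

namespace Crest.Agent.Helper17.SW

open Finset Crest.SwitchChain Crest.Agent.Helper65.Switch

variable {n : ℕ}

/-- `e` touches the pair `{a, b}`. -/
def tch (a b : Fin n) (e : Edge n) : Prop := a ∈ e.1 ∨ b ∈ e.1

instance tchDec (a b : Fin n) : DecidablePred (tch a b) := fun e => by
  unfold tch; infer_instance

/-- key of `~_{ab}`: the edges of `G` not touching `a`, `b`. -/
def off2 (a b : Fin n) (G : Finset (Edge n)) : Finset (Edge n) := G.filter fun e => ¬ tch a b e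

lemma mem_off2 {a b : Fin n} {G : Finset (Edge n)} {e : Edge n} :
    e ∈ off2 a b G ↔ e ∈ G ∧ ¬ tch a b e := by simp [off2]

/-! ### generic degree lemmas -/

lemma deg_union {E F : Finset (Edge n)} (h : Disjoint E F) (x : Fin n) :
    deg (E ∪ F) x = deg E x + deg F x := by
  rw [deg_def, deg_def, deg_def, Finset.filter_union,
    Finset.card_union_of_disjoint (Finset.disjoint_filter_filter h)]

lemma deg_eq_zero {E : Finset (Edge n)} {x : Fin n} (h : ∀ e ∈ E, x ∉ e.1) : deg E x = 0 := by
  rw [deg_def, Finset.card_eq_zero, Finset.filter_eq_empty_iff]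
  exact h

lemma deg_empty (x : Fin n) : deg (∅ : Finset (Edge n)) x = 0 := by
  rw [deg_def]; simp

lemma deg_singleton (e : Edge n) (x : Fin n) :
    deg ({e} : Finset (Edge n)) x = if x ∈ e.1 then 1 else 0 := by
  rw [deg_def, Finset.filter_singleton]
  split_ifs <;> simp

lemma card_split4 {α : Type*} (s : Finset α) (p q : α → Prop) [DecidablePred p]
    [DecidablePred q] :
    s.card = (s.filter fun x => ¬ p x ∧ ¬ q x).card + (s.filter fun x => p x ∧ ¬ q x).card +
      (s.filter fun x => ¬ p x ∧ q x).card + (s.filter fun x => p x ∧ q x).card := by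
  simp only [Finset.card_filter]
  rw [← Finset.sum_add_distrib, ← Finset.sum_add_distrib, ← Finset.sum_add_distrib,
    Finset.card_eq_sum_ones]
  refine Finset.sum_congr rfl fun x _ => ?_
  by_cases hp : p x <;> by_cases hq : q x <;> simp [hp, hq]

/-- four distinct vertices: the pairs `{a,b}` and `{u,v}`. -/
structure Quad (n : ℕ) where
  a : Fin n
  b : Fin n
  u : Fin n
  v : Fin n
  hab : a ≠ b
  hau : a ≠ u
  hav : a ≠ v
  hbu : b ≠ u
  hbv : b ≠ v
  huv : u ≠ v

namespace Quad

variable (q : Quad n)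

/-- the same four vertices with the two pairs exchanged. -/
def swap : Quad n :=
  ⟨q.u, q.v, q.a, q.b, q.huv, q.hau.symm, q.hbu.symm, q.hav.symm, q.hbv.symm, q.hab⟩

/-- a vertex outside the four. -/
def out (w : Fin n) : Prop := w ≠ q.a ∧ w ≠ q.b ∧ w ≠ q.u ∧ w ≠ q.v

instance outDec : DecidablePred q.out := fun w => by unfold out; infer_instance

/-- the four block edges. -/
def eau : Edge n := mkE q.a q.u q.hau
def eav : Edge n := mkE q.a q.v q.hav
def ebu : Edge n := mkE q.b q.u q.hbu
def ebv : Edge n := mkE q.b q.v q.hbv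

/-- the four parts of a graph. -/
def R (G : Finset (Edge n)) : Finset (Edge n) :=
  G.filter fun e => ¬ tch q.a q.b e ∧ ¬ tch q.u q.v e
def A (G : Finset (Edge n)) : Finset (Edge n) :=
  G.filter fun e => tch q.a q.b e ∧ ¬ tch q.u q.v e
def C (G : Finset (Edge n)) : Finset (Edge n) :=
  G.filter fun e => ¬ tch q.a q.b e ∧ tch q.u q.v e
def B (G : Finset (Edge n)) : Finset (Edge n) :=
  G.filter fun e => tch q.a q.b e ∧ tch q.u q.v e

lemma mem_R {G : Finset (Edge n)} {e : Edge n} :
    e ∈ q.R G ↔ e ∈ G ∧ ¬ tch q.a q.b e ∧ ¬ tch q.u q.v e := by simp [R]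
lemma mem_A {G : Finset (Edge n)} {e : Edge n} :
    e ∈ q.A G ↔ e ∈ G ∧ tch q.a q.b e ∧ ¬ tch q.u q.v e := by simp [A]
lemma mem_C {G : Finset (Edge n)} {e : Edge n} :
    e ∈ q.C G ↔ e ∈ G ∧ ¬ tch q.a q.b e ∧ tch q.u q.v e := by simp [C]
lemma mem_B {G : Finset (Edge n)} {e : Edge n} :
    e ∈ q.B G ↔ e ∈ G ∧ tch q.a q.b e ∧ tch q.u q.v e := by simp [B]

/-- degrees add up over the four parts. -/
lemma deg_parts (G : Finset (Edge n)) (x : Fin n) :
    deg G x = deg (q.R G) x + deg (q.A G) x + deg (q.C G) x + deg (q.B G) x := by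
  simp only [deg_def, R, A, C, B]
  rw [card_split4 (G.filter fun e => x ∈ e.1) (tch q.a q.b) (tch q.u q.v)]
  simp only [Finset.filter_filter]
  congr 1
  · congr 1
    · congr 1
      · congr 1; ext e; simp only [mem_filter]; tauto
      · congr 1; ext e; simp only [mem_filter]; tauto
    · congr 1; ext e; simp only [mem_filter]; tauto
  · congr 1; ext e; simp only [mem_filter]; tauto

/-- a graph is the union of its parts. -/
lemma eq_union_parts (G : Finset (Edge n)) : G = q.R G ∪ q.A G ∪ q.C G ∪ q.B G := by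
  ext e
  simp only [mem_union, mem_R, mem_A, mem_C, mem_B]
  by_cases h1 : tch q.a q.b e <;> by_cases h2 : tch q.u q.v e <;> simp [h1, h2]

lemma off2_ab (G : Finset (Edge n)) : off2 q.a q.b G = q.R G ∪ q.C G := by
  ext e
  simp only [mem_off2, mem_union, mem_R, mem_C]
  by_cases h1 : tch q.a q.b e <;> by_cases h2 : tch q.u q.v e <;> simp [h1, h2]

lemma off2_uv (G : Finset (Edge n)) : off2 q.u q.v G = q.R G ∪ q.A G := by
  ext e
  simp only [mem_off2, mem_union, mem_R, mem_A]
  by_cases h1 : tch q.a q.b e <;> by_cases h2 : tch q.u q.v e <;> simp [h1, h2]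

lemma R_eq_filter_off2_ab (G : Finset (Edge n)) :
    q.R G = (off2 q.a q.b G).filter fun e => ¬ tch q.u q.v e := by
  ext e; simp only [mem_R, mem_filter, mem_off2]; tauto

lemma C_eq_filter_off2_ab (G : Finset (Edge n)) :
    q.C G = (off2 q.a q.b G).filter fun e => tch q.u q.v e := by
  ext e; simp only [mem_C, mem_filter, mem_off2]; tauto

lemma R_eq_filter_off2_uv (G : Finset (Edge n)) :
    q.R G = (off2 q.u q.v G).filter fun e => ¬ tch q.a q.b e := by
  ext e; simp only [mem_R, mem_filter, mem_off2]; tauto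

lemma A_eq_filter_off2_uv (G : Finset (Edge n)) :
    q.A G = (off2 q.u q.v G).filter fun e => tch q.a q.b e := by
  ext e; simp only [mem_A, mem_filter, mem_off2]; tauto

/-- an edge touching both pairs is one of the four block edges. -/
lemma block_iff (e : Edge n) :
    (tch q.a q.b e ∧ tch q.u q.v e) ↔ e = q.eau ∨ e = q.eav ∨ e = q.ebu ∨ e = q.ebv := by
  constructor
  · rintro ⟨h1, h2⟩
    rcases h1 with h1 | h1 <;> rcases h2 with h2 | h2
    · left; exact edge_eq_mkE e h1 h2 q.hau
    · right; left; exact edge_eq_mkE e h1 h2 q.hav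
    · right; right; left; exact edge_eq_mkE e h1 h2 q.hbu
    · right; right; right; exact edge_eq_mkE e h1 h2 q.hbv
  · rintro (rfl | rfl | rfl | rfl) <;> simp [tch, eau, eav, ebu, ebv]

/-- a block edge only contains the four vertices. -/
lemma block_not_mem {e : Edge n} (h : tch q.a q.b e ∧ tch q.u q.v e) {w : Fin n} (hw : q.out w) :
    w ∉ e.1 := by
  obtain ⟨h1, h2, h3, h4⟩ := hw
  rcases (q.block_iff e).1 h with rfl | rfl | rfl | rfl <;> simp [eau, eav, ebu, ebv, *]

/-! ### degrees of the parts at special vertices -/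

lemma deg_R_a (G : Finset (Edge n)) : deg (q.R G) q.a = 0 :=
  deg_eq_zero fun _ he h => (q.mem_R.1 he).2.1 (Or.inl h)
lemma deg_R_b (G : Finset (Edge n)) : deg (q.R G) q.b = 0 :=
  deg_eq_zero fun _ he h => (q.mem_R.1 he).2.1 (Or.inr h)
lemma deg_R_u (G : Finset (Edge n)) : deg (q.R G) q.u = 0 :=
  deg_eq_zero fun _ he h => (q.mem_R.1 he).2.2 (Or.inl h)
lemma deg_R_v (G : Finset (Edge n)) : deg (q.R G) q.v = 0 :=
  deg_eq_zero fun _ he h => (q.mem_R.1 he).2.2 (Or.inr h)
lemma deg_A_u (G : Finset (Edge n)) : deg (q.A G) q.u = 0 :=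
  deg_eq_zero fun _ he h => (q.mem_A.1 he).2.2 (Or.inl h)
lemma deg_A_v (G : Finset (Edge n)) : deg (q.A G) q.v = 0 :=
  deg_eq_zero fun _ he h => (q.mem_A.1 he).2.2 (Or.inr h)
lemma deg_C_a (G : Finset (Edge n)) : deg (q.C G) q.a = 0 :=
  deg_eq_zero fun _ he h => (q.mem_C.1 he).2.1 (Or.inl h)
lemma deg_C_b (G : Finset (Edge n)) : deg (q.C G) q.b = 0 :=
  deg_eq_zero fun _ he h => (q.mem_C.1 he).2.1 (Or.inr h)
lemma deg_B_out (G : Finset (Edge n)) {w : Fin n} (hw : q.out w) : deg (q.B G) w = 0 :=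
  deg_eq_zero fun e he => q.block_not_mem (q.mem_B.1 he).2 hw

end Quad

end Crest.Agent.Helper17.SW
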